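import Claimed.Agent.R282.Rep.Tree

/-!
# Row 282, Rep, LEAF L-REP-POW : powers (statement by helper103), ~1k lines.  Plan in the docstring.
Suggested intermediate notion: `Flag R v a := a ∈ closure under (a ↦ NormedSpace.exp (R.ρ X) *ᵥ a, X ∈ g) of {v}`.  (i) `span Flag = cyc v`. (ii) `Flag R v a → Flag R' v' a'`-pairs with the SAME word: define words `List (Matrix (Ix n) (Ix n) ℂ)` and `R.word l = ∏ exp (R.ρ X)`;
`(R.kron R').word l (tmul a a') = tmul (R.word l a) (R'.word l a')` (`exp (A ⊗ 1 + 1 ⊗ B) = exp A ⊗ exp B`, commuting summands); `R.word l` maps invariant subspaces into themselves.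
-/

set_option autoImplicit false

namespace Claimed.Agent.R282

open Claims.C0456 Matrix

variable {n : ℕ}
variable {ι ι' ι₁ ι₂ ι₃ : Type} [Fintype ι] [DecidableEq ι] [Fintype ι'] [DecidableEq ι']
  [Fintype ι₁] [DecidableEq ι₁] [Fintype ι₂] [DecidableEq ι₂] [Fintype ι₃] [DecidableEq ι₃]

variable {κ₁ κ₂ κ₃ : Type} [Fintype κ₁] [DecidableEq κ₁] [Fintype κ₂] [DecidableEq κ₂]
  [Fintype κ₃] [DecidableEq κ₃]

/-! ## the exponential of a matrix -/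

/-- the exponential of a matrix preserves every subspace preserved by the matrix -/
theorem rpw_exp_mem (A : Matrix ι ι ℂ) (S : Submodule ℂ (ι → ℂ)) (h : ∀ a ∈ S, A *ᵥ a ∈ S)
    (a : ι → ℂ) (ha : a ∈ S) : NormedSpace.exp A *ᵥ a ∈ S := by
  let s : Subalgebra ℂ (Matrix ι ι ℂ) :=
    { carrier := {M | ∀ a ∈ S, M *ᵥ a ∈ S}
      mul_mem' := by
        intro M N hM hN a ha
        rw [← Matrix.mulVec_mulVec]
        exact hM _ (hN _ ha)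
      add_mem' := by
        intro M N hM hN a ha
        rw [Matrix.add_mulVec]
        exact S.add_mem (hM _ ha) (hN _ ha)
      algebraMap_mem' := by
        intro r a ha
        rw [Matrix.algebraMap_eq_diagonal]
        have : (diagonal (algebraMap ℂ (ι → ℂ) r)) *ᵥ a = r • a := by
          ext i
          simp [Matrix.mulVec_diagonal]
        rw [this]
        exact S.smul_mem _ ha }
  have hcl : IsClosed (s : Set (Matrix ι ι ℂ)) :=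
    Submodule.closed_of_finiteDimensional (Subalgebra.toSubmodule s)
  have : NormedSpace.exp A ∈ s := NormedSpace.exp_mem (R := ℂ) hcl (show A ∈ s from h)
  exact this a ha

open scoped Matrix.Norms.Operator in
/-- differentiating `t ↦ exp (t A) a` at `0` inside a subspace -/
theorem rpw_deriv_mem (A : Matrix ι ι ℂ) (Z : Submodule ℂ (ι → ℂ)) (a : ι → ℂ)
    (h : ∀ t : ℂ, NormedSpace.exp (t • A) *ᵥ a ∈ Z) : A *ᵥ a ∈ Z := by
  rw [← orthC_orthC Z]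
  intro b hb
  let L : Matrix ι ι ℂ →ₗ[ℂ] ℂ :=
    { toFun := fun M => star b ⬝ᵥ (M *ᵥ a)
      map_add' := by intro M N; rw [Matrix.add_mulVec, dotProduct_add]
      map_smul' := by intro c M; rw [Matrix.smul_mulVec, dotProduct_smul]; rfl }
  have h1 : HasDerivAt (fun t : ℂ => NormedSpace.exp (t • A)) (NormedSpace.exp ((0 : ℂ) • A) * A) 0 :=
    hasDerivAt_exp_smul_const A 0
  have h2 := (LinearMap.toContinuousLinearMap L).hasFDerivAt.comp_hasDerivAt (0 : ℂ) h1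
  have h3 : ((LinearMap.toContinuousLinearMap L) ∘ fun t : ℂ => NormedSpace.exp (t • A)) = fun _ => (0 : ℂ) := by
    funext t
    show star b ⬝ᵥ (NormedSpace.exp (t • A) *ᵥ a) = 0
    rw [Matrix.star_dotProduct, hb _ (h t), star_zero]
  rw [h3] at h2
  have h4 := h2.unique (hasDerivAt_const (0 : ℂ) (0 : ℂ))
  have h5 : (LinearMap.toContinuousLinearMap L) (NormedSpace.exp ((0 : ℂ) • A) * A) = star b ⬝ᵥ (A *ᵥ a) := by
    rw [zero_smul, NormedSpace.exp_zero, one_mul]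
    rfl
  rw [← h5]
  exact h4

open scoped Matrix.Norms.Operator in
theorem rpw_exp_kron_left (A : Matrix ι ι ℂ) :
    NormedSpace.exp (kroneckerMap (· * ·) A (1 : Matrix ι' ι' ℂ)) =
      kroneckerMap (· * ·) (NormedSpace.exp A) (1 : Matrix ι' ι' ℂ) := by
  let f : Matrix ι ι ℂ →+* Matrix (ι × ι') (ι × ι') ℂ :=
    { toFun := fun A => kroneckerMap (· * ·) A (1 : Matrix ι' ι' ℂ)
      map_one' := kroneckerMap_one_one _ (by simp) (by simp) (by simp)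
      map_mul' := by
        intro A B
        have := mul_kronecker_mul A B (1 : Matrix ι' ι' ℂ) (1 : Matrix ι' ι' ℂ)
        rw [one_mul] at this
        exact this
      map_zero' := kroneckerMap_zero_left _ (by simp) _
      map_add' := by
        intro A B
        exact kroneckerMap_add_left _ (fun a b c => add_mul a b c) _ _ _ }
  have hf : Continuous f := by
    let g : Matrix ι ι ℂ →ₗ[ℂ] Matrix (ι × ι') (ι × ι') ℂ :=
      { toFun := f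
        map_add' := f.map_add
        map_smul' := by
          intro c A
          ext ⟨a, b⟩ ⟨a', b'⟩
          simp [f, kroneckerMap_apply, mul_assoc] }
    exact g.continuous_of_finiteDimensional
  exact (NormedSpace.map_exp f hf A).symm

open scoped Matrix.Norms.Operator in
theorem rpw_exp_kron_right (B : Matrix ι' ι' ℂ) :
    NormedSpace.exp (kroneckerMap (· * ·) (1 : Matrix ι ι ℂ) B) =
      kroneckerMap (· * ·) (1 : Matrix ι ι ℂ) (NormedSpace.exp B) := by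
  let f : Matrix ι' ι' ℂ →+* Matrix (ι × ι') (ι × ι') ℂ :=
    { toFun := fun B => kroneckerMap (· * ·) (1 : Matrix ι ι ℂ) B
      map_one' := kroneckerMap_one_one _ (by simp) (by simp) (by simp)
      map_mul' := by
        intro A B
        have := mul_kronecker_mul (1 : Matrix ι ι ℂ) (1 : Matrix ι ι ℂ) A B
        rw [one_mul] at this
        exact this
      map_zero' := kroneckerMap_zero_right _ (by simp) _
      map_add' := by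
        intro A B
        exact kroneckerMap_add_right _ (fun a b c => mul_add a b c) _ _ _ }
  have hf : Continuous f := by
    let g : Matrix ι' ι' ℂ →ₗ[ℂ] Matrix (ι × ι') (ι × ι') ℂ :=
      { toFun := f
        map_add' := f.map_add
        map_smul' := by
          intro c A
          ext ⟨a, b⟩ ⟨a', b'⟩
          simp [f, kroneckerMap_apply, mul_left_comm] }
    exact g.continuous_of_finiteDimensional
  exact (NormedSpace.map_exp f hf B).symm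

theorem rpw_exp_kron (A : Matrix ι ι ℂ) (B : Matrix ι' ι' ℂ) :
    NormedSpace.exp (kroneckerMap (· * ·) A (1 : Matrix ι' ι' ℂ) +
      kroneckerMap (· * ·) (1 : Matrix ι ι ℂ) B) =
      kroneckerMap (· * ·) (NormedSpace.exp A) (NormedSpace.exp B) := by
  have hc : Commute (kroneckerMap (· * ·) A (1 : Matrix ι' ι' ℂ))
      (kroneckerMap (· * ·) (1 : Matrix ι ι ℂ) B) := by
    show _ * _ = _ * _
    have h1 := mul_kronecker_mul A (1 : Matrix ι ι ℂ) (1 : Matrix ι' ι' ℂ) B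
    have h2 := mul_kronecker_mul (1 : Matrix ι ι ℂ) A B (1 : Matrix ι' ι' ℂ)
    rw [mul_one, one_mul] at h1 h2
    exact h1.symm.trans h2
  rw [Matrix.exp_add_of_commute _ _ hc, rpw_exp_kron_left, rpw_exp_kron_right]
  have h1 := mul_kronecker_mul (NormedSpace.exp A) (1 : Matrix ι ι ℂ) (1 : Matrix ι' ι' ℂ)
    (NormedSpace.exp B)
  rw [mul_one, one_mul] at h1
  exact h1.symm

omit [DecidableEq ι] [DecidableEq ι'] in
theorem rpw_kron_mulVec (A : Matrix ι ι ℂ) (B : Matrix ι' ι' ℂ) (a : ι → ℂ) (b : ι' → ℂ) :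
    kroneckerMap (· * ·) A B *ᵥ tmul a b = tmul (A *ᵥ a) (B *ᵥ b) := by
  funext ⟨i, j⟩
  simp only [Matrix.mulVec, dotProduct, tmul, kroneckerMap_apply, Fintype.sum_prod_type,
    Finset.sum_mul_sum]
  refine Finset.sum_congr rfl fun x _ => Finset.sum_congr rfl fun y _ => ?_
  ring

/-! ## words in the exponentials -/

/-- the action of the word `exp (ρ X₁) ⋯ exp (ρ X_k)` -/
noncomputable def rpwWord (R : StarRep Ty.D n ι) (l : List (Matrix (Ix n) (Ix n) ℂ)) (a : ι → ℂ) :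
    ι → ℂ :=
  l.foldr (fun X b => NormedSpace.exp (R.ρ X) *ᵥ b) a

theorem rpw_word_nil (R : StarRep Ty.D n ι) (a : ι → ℂ) : rpwWord R [] a = a := rfl

theorem rpw_word_cons (R : StarRep Ty.D n ι) (X : Matrix (Ix n) (Ix n) ℂ)
    (l : List (Matrix (Ix n) (Ix n) ℂ)) (a : ι → ℂ) :
    rpwWord R (X :: l) a = NormedSpace.exp (R.ρ X) *ᵥ rpwWord R l a := rfl

theorem rpw_word_mem (R : StarRep Ty.D n ι) (S : Submodule ℂ (ι → ℂ)) (hS : R.Inv S)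
    (l : List (Matrix (Ix n) (Ix n) ℂ)) (hl : ∀ X ∈ l, Ty.D.InG X) (a : ι → ℂ) (ha : a ∈ S) :
    rpwWord R l a ∈ S := by
  induction l with
  | nil => exact ha
  | cons X l ih =>
    rw [rpw_word_cons]
    exact rpw_exp_mem _ S (fun b hb => hS X (hl X (List.mem_cons_self ..)) b hb) _
      (ih fun Y hY => hl Y (List.mem_cons_of_mem _ hY))

theorem rpw_kron_rho (R : StarRep Ty.D n ι) (R' : StarRep Ty.D n ι') (X : Matrix (Ix n) (Ix n) ℂ) :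
    (R.kron R').ρ X = kroneckerMap (· * ·) (R.ρ X) (1 : Matrix ι' ι' ℂ) +
        kroneckerMap (· * ·) (1 : Matrix ι ι ℂ) (R'.ρ X) := rfl

theorem rpw_word_kron (R : StarRep Ty.D n ι) (R' : StarRep Ty.D n ι')
    (l : List (Matrix (Ix n) (Ix n) ℂ)) (a : ι → ℂ) (a' : ι' → ℂ) :
    rpwWord (R.kron R') l (tmul a a') = tmul (rpwWord R l a) (rpwWord R' l a') := by
  induction l with
  | nil => rfl
  | cons X l ih =>
    rw [rpw_word_cons, rpw_word_cons, rpw_word_cons, ih, rpw_kron_rho, rpw_exp_kron,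
      rpw_kron_mulVec]

/-- the span of the orbit of `v` under the words -/
noncomputable def rpwZ (R : StarRep Ty.D n ι) (v : ι → ℂ) : Submodule ℂ (ι → ℂ) :=
  Submodule.span ℂ {x | ∃ l : List (Matrix (Ix n) (Ix n) ℂ), (∀ X ∈ l, Ty.D.InG X) ∧ x = rpwWord R l v}

theorem rpw_Z_inv (R : StarRep Ty.D n ι) (v : ι → ℂ) : R.Inv (rpwZ R v) := by
  intro X hX a ha
  induction ha using Submodule.span_induction with
  | mem x hx =>
    obtain ⟨l, hl, rfl⟩ := hx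
    rw [op_apply]
    refine rpw_deriv_mem _ _ _ fun t => ?_
    refine Submodule.subset_span ⟨(t • X) :: l, ?_, ?_⟩
    · intro Y hY
      rcases List.mem_cons.1 hY with rfl | hY
      · exact inG_smul t X hX
      · exact hl Y hY
    · rw [rpw_word_cons, map_smul]
  | zero => rw [map_zero]; exact Submodule.zero_mem _
  | add x y _ _ hx hy => rw [map_add]; exact Submodule.add_mem _ hx hy
  | smul c x _ hx => rw [map_smul]; exact Submodule.smul_mem _ _ hx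

theorem rpw_cyc_le (R : StarRep Ty.D n ι) (v : ι → ℂ) : R.cyc v ≤ rpwZ R v :=
  cyc_le R v _ (rpw_Z_inv R v) (Submodule.subset_span ⟨[], by simp, rfl⟩)

/-- a linear functional which vanishes on the orbit vanishes on the cyclic module -/
theorem rpw_vanish (R : StarRep Ty.D n ι) (v : ι → ℂ) (φ : (ι → ℂ) →ₗ[ℂ] ℂ)
    (h : ∀ l : List (Matrix (Ix n) (Ix n) ℂ), (∀ X ∈ l, Ty.D.InG X) → φ (rpwWord R l v) = 0)
    (a : ι → ℂ) (ha : a ∈ R.cyc v) : φ a = 0 := by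
  have h1 : rpwZ R v ≤ LinearMap.ker φ := by
    refine Submodule.span_le.2 ?_
    rintro x ⟨l, hl, rfl⟩
    exact h l hl
  exact h1 (rpw_cyc_le R v ha)

/-- extraction of words -/
theorem rpw_extract (R₁ : StarRep Ty.D n ι₁) (R₂ : StarRep Ty.D n ι₂) (R₃ : StarRep Ty.D n ι₃)
    (T : (ι₁ → ℂ) →ₗ[ℂ] (ι₂ → ℂ) →ₗ[ℂ] (ι₃ → ℂ)) (v₁ : ι₁ → ℂ) (v₂ : ι₂ → ℂ) (v₃ : ι₃ → ℂ)
    (a : ι₁ → ℂ) (ha : a ∈ R₁.cyc v₁) (b : ι₂ → ℂ) (hb : b ∈ R₂.cyc v₂) (c : ι₃ → ℂ)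
    (hc : c ∈ R₃.cyc v₃) (hne : star c ⬝ᵥ T a b ≠ 0) :
    ∃ l₁ l₂ l₃ : List (Matrix (Ix n) (Ix n) ℂ), (∀ X ∈ l₁, Ty.D.InG X) ∧ (∀ X ∈ l₂, Ty.D.InG X) ∧
      (∀ X ∈ l₃, Ty.D.InG X) ∧
      star (rpwWord R₃ l₃ v₃) ⬝ᵥ T (rpwWord R₁ l₁ v₁) (rpwWord R₂ l₂ v₂) ≠ 0 := by
  by_contra hcon
  push Not at hcon
  apply hne
  -- the functional `d ↦ star c ⬝ᵥ d`
  let dotL : (ι₃ → ℂ) → (ι₃ → ℂ) →ₗ[ℂ] ℂ := fun c =>
    { toFun := fun d => star c ⬝ᵥ d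
      map_add' := by intro x y; rw [dotProduct_add]
      map_smul' := by intro r x; rw [dotProduct_smul]; rfl }
  -- step 1 : in `a`
  refine rpw_vanish R₁ v₁ ((dotL c) ∘ₗ (T.flip b)) (fun l₁ h₁ => ?_) a ha
  show star c ⬝ᵥ T (rpwWord R₁ l₁ v₁) b = 0
  refine rpw_vanish R₂ v₂ ((dotL c) ∘ₗ (T (rpwWord R₁ l₁ v₁))) (fun l₂ h₂ => ?_) b hb
  show star c ⬝ᵥ T (rpwWord R₁ l₁ v₁) (rpwWord R₂ l₂ v₂) = 0
  rw [Matrix.star_dotProduct]
  have : star (T (rpwWord R₁ l₁ v₁) (rpwWord R₂ l₂ v₂)) ⬝ᵥ c = 0 := by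
    refine rpw_vanish R₃ v₃ (dotL (T (rpwWord R₁ l₁ v₁) (rpwWord R₂ l₂ v₂))) (fun l₃ h₃ => ?_) c hc
    show star (T (rpwWord R₁ l₁ v₁) (rpwWord R₂ l₂ v₂)) ⬝ᵥ rpwWord R₃ l₃ v₃ = 0
    rw [Matrix.star_dotProduct, hcon l₁ l₂ l₃ h₁ h₂ h₃, star_zero]
  rw [this, star_zero]

/-! ## bilinearity of `tmul` -/

omit [Fintype ι] [DecidableEq ι] [Fintype ι'] [DecidableEq ι'] in
theorem rpw_tmul_add_left (a b : ι → ℂ) (c : ι' → ℂ) : tmul (a + b) c = tmul a c + tmul b c := by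
  funext p; simp [tmul, add_mul]

omit [Fintype ι] [DecidableEq ι] [Fintype ι'] [DecidableEq ι'] in
theorem rpw_tmul_add_right (a : ι → ℂ) (b c : ι' → ℂ) : tmul a (b + c) = tmul a b + tmul a c := by
  funext p; simp [tmul, mul_add]

theorem rpw_kron_tmul (R : StarRep Ty.D n ι) (R' : StarRep Ty.D n ι') (X : Matrix (Ix n) (Ix n) ℂ)
    (a : ι → ℂ) (a' : ι' → ℂ) :
    (R.kron R').ρ X *ᵥ tmul a a' = tmul (R.ρ X *ᵥ a) a' + tmul a (R'.ρ X *ᵥ a') := by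
  rw [rpw_kron_rho, Matrix.add_mulVec, rpw_kron_mulVec, rpw_kron_mulVec, Matrix.one_mulVec,
    Matrix.one_mulVec]

omit [DecidableEq ι] [DecidableEq ι'] in
theorem rpw_dot_tmul (c d : ι → ℂ) (c' d' : ι' → ℂ) :
    star (tmul c c') ⬝ᵥ tmul d d' = (star c ⬝ᵥ d) * (star c' ⬝ᵥ d') := by
  simp only [dotProduct, tmul, Fintype.sum_prod_type, Finset.sum_mul_sum, Pi.star_apply, star_mul']
  refine Finset.sum_congr rfl fun x _ => Finset.sum_congr rfl fun y _ => ?_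
  ring

omit [Fintype ι] [Fintype ι'] in
theorem rpw_single_tmul (q : ι × ι') (c : ℂ) :
    (Pi.single q c : ι × ι' → ℂ) = tmul (Pi.single q.1 c) (Pi.single q.2 1) := by
  funext p
  obtain ⟨q1, q2⟩ := q
  obtain ⟨p1, p2⟩ := p
  by_cases h1 : p1 = q1
  · by_cases h2 : p2 = q2
    · subst h1 h2; simp [tmul]
    · subst h1
      have : (p1, p2) ≠ (p1, q2) := by intro e; exact h2 (Prod.ext_iff.1 e).2
      simp [tmul, h2, this]
  · have : (p1, p2) ≠ (q1, q2) := by intro e; exact h1 (Prod.ext_iff.1 e).1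
    simp [tmul, Pi.single_apply, h1, this]

/-- bilinear maps on tensor products are determined by the elementary tensors -/
theorem rpw_ext₂ {M : Type} [AddCommGroup M] [Module ℂ M]
    (F G : (ι₁ × κ₁ → ℂ) →ₗ[ℂ] (ι₂ × κ₂ → ℂ) →ₗ[ℂ] M)
    (h : ∀ a a' b b', F (tmul a a') (tmul b b') = G (tmul a a') (tmul b b')) : F = G := by
  refine LinearMap.pi_ext fun q c => ?_
  refine LinearMap.pi_ext fun r d => ?_
  rw [rpw_single_tmul q c, rpw_single_tmul r d]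
  exact h _ _ _ _

omit [Fintype ι₃] [DecidableEq ι₃] in
/-- coordinates of a bilinear map -/
theorem rpw_coord (T : (ι₁ → ℂ) →ₗ[ℂ] (ι₂ → ℂ) →ₗ[ℂ] (ι₃ → ℂ)) (a : ι₁ → ℂ) (b : ι₂ → ℂ) (k : ι₃) :
    T a b k = ∑ i, ∑ j, a i * b j * T (Pi.single i 1) (Pi.single j 1) k := by
  have ha : a = ∑ i, a i • (Pi.single i 1 : ι₁ → ℂ) := by
    funext x; simp [Finset.sum_apply, Pi.single_apply]
  have hb : b = ∑ j, b j • (Pi.single j 1 : ι₂ → ℂ) := by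
    funext x; simp [Finset.sum_apply, Pi.single_apply]
  conv_lhs => rw [ha, hb]
  simp only [map_sum, map_smul, LinearMap.sum_apply, LinearMap.smul_apply, Finset.sum_apply,
    Pi.smul_apply, smul_eq_mul, Finset.mul_sum]
  rw [Finset.sum_comm]
  refine Finset.sum_congr rfl fun x _ => ?_
  refine Finset.sum_congr rfl fun y _ => ?_
  ring

/-- the tensor product of two bilinear maps -/
noncomputable def rpwT (T : (ι₁ → ℂ) →ₗ[ℂ] (ι₂ → ℂ) →ₗ[ℂ] (ι₃ → ℂ))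
    (T' : (κ₁ → ℂ) →ₗ[ℂ] (κ₂ → ℂ) →ₗ[ℂ] (κ₃ → ℂ)) :
    (ι₁ × κ₁ → ℂ) →ₗ[ℂ] (ι₂ × κ₂ → ℂ) →ₗ[ℂ] (ι₃ × κ₃ → ℂ) :=
  LinearMap.mk₂ ℂ (fun x y p => ∑ q, ∑ r, x q * y r *
      (T (Pi.single q.1 1) (Pi.single r.1 1) p.1 * T' (Pi.single q.2 1) (Pi.single r.2 1) p.2))
    (by
      intro x x' y; funext p
      simp only [Pi.add_apply, add_mul, Finset.sum_add_distrib])
    (by
      intro c x y; funext p
      simp only [Pi.smul_apply, smul_eq_mul, Finset.mul_sum, mul_assoc])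
    (by
      intro x y y'; funext p
      simp only [Pi.add_apply, add_mul, mul_add, Finset.sum_add_distrib])
    (by
      intro c x y; funext p
      simp only [Pi.smul_apply, smul_eq_mul, Finset.mul_sum]
      refine Finset.sum_congr rfl fun q _ => Finset.sum_congr rfl fun r _ => ?_
      ring)

omit [Fintype ι₃] [DecidableEq ι₃] [Fintype κ₃] [DecidableEq κ₃] in
theorem rpw_T_apply (T : (ι₁ → ℂ) →ₗ[ℂ] (ι₂ → ℂ) →ₗ[ℂ] (ι₃ → ℂ))
    (T' : (κ₁ → ℂ) →ₗ[ℂ] (κ₂ → ℂ) →ₗ[ℂ] (κ₃ → ℂ)) (x : ι₁ × κ₁ → ℂ) (y : ι₂ × κ₂ → ℂ)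
    (p : ι₃ × κ₃) :
    rpwT T T' x y p = ∑ q, ∑ r, x q * y r *
      (T (Pi.single q.1 1) (Pi.single r.1 1) p.1 * T' (Pi.single q.2 1) (Pi.single r.2 1) p.2) :=
  rfl

omit [Fintype ι₃] [DecidableEq ι₃] [Fintype κ₃] [DecidableEq κ₃] in
theorem rpw_T_tmul (T : (ι₁ → ℂ) →ₗ[ℂ] (ι₂ → ℂ) →ₗ[ℂ] (ι₃ → ℂ))
    (T' : (κ₁ → ℂ) →ₗ[ℂ] (κ₂ → ℂ) →ₗ[ℂ] (κ₃ → ℂ)) (a : ι₁ → ℂ) (a' : κ₁ → ℂ) (b : ι₂ → ℂ)
    (b' : κ₂ → ℂ) : rpwT T T' (tmul a a') (tmul b b') = tmul (T a b) (T' a' b') := by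
  funext p
  rw [rpw_T_apply]
  show _ = T a b p.1 * T' a' b' p.2
  rw [rpw_coord T a b, rpw_coord T' a' b']
  simp only [Fintype.sum_prod_type, tmul, Finset.sum_mul_sum]
  refine Finset.sum_congr rfl fun i _ => ?_
  refine Finset.sum_congr rfl fun j _ => ?_
  refine Finset.sum_congr rfl fun i' _ => ?_
  refine Finset.sum_congr rfl fun j' _ => ?_
  ring

/-- equivariance of the tensor product of equivariant bilinear maps -/
theorem rpw_T_equiv (R₁ : StarRep Ty.D n ι₁) (R₂ : StarRep Ty.D n ι₂) (R₃ : StarRep Ty.D n ι₃)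
    (S₁ : StarRep Ty.D n κ₁) (S₂ : StarRep Ty.D n κ₂) (S₃ : StarRep Ty.D n κ₃)
    (T : (ι₁ → ℂ) →ₗ[ℂ] (ι₂ → ℂ) →ₗ[ℂ] (ι₃ → ℂ))
    (T' : (κ₁ → ℂ) →ₗ[ℂ] (κ₂ → ℂ) →ₗ[ℂ] (κ₃ → ℂ)) (X : Matrix (Ix n) (Ix n) ℂ)
    (h : ∀ a b, (R₃.ρ X).mulVec (T a b) = T ((R₁.ρ X).mulVec a) b + T a ((R₂.ρ X).mulVec b))
    (h' : ∀ a b, (S₃.ρ X).mulVec (T' a b) = T' ((S₁.ρ X).mulVec a) b + T' a ((S₂.ρ X).mulVec b))
    (x : ι₁ × κ₁ → ℂ) (y : ι₂ × κ₂ → ℂ) :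
    ((R₃.kron S₃).ρ X).mulVec (rpwT T T' x y) =
      rpwT T T' (((R₁.kron S₁).ρ X).mulVec x) y + rpwT T T' x (((R₂.kron S₂).ρ X).mulVec y) := by
  have key : (rpwT T T').compr₂ ((R₃.kron S₃).op X) =
      (rpwT T T').comp ((R₁.kron S₁).op X) + (rpwT T T').compl₂ ((R₂.kron S₂).op X) := by
    refine rpw_ext₂ _ _ fun a a' b b' => ?_
    show ((R₃.kron S₃).ρ X).mulVec (rpwT T T' (tmul a a') (tmul b b')) =
      rpwT T T' (((R₁.kron S₁).ρ X).mulVec (tmul a a')) (tmul b b') +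
        rpwT T T' (tmul a a') (((R₂.kron S₂).ρ X).mulVec (tmul b b'))
    rw [rpw_T_tmul, rpw_kron_tmul, rpw_kron_tmul, rpw_kron_tmul, h, h']
    simp only [map_add, LinearMap.add_apply, rpw_T_tmul, rpw_tmul_add_left, rpw_tmul_add_right]
    abel
  exact congrFun (congrArg DFunLike.coe (congrFun (congrArg DFunLike.coe key) x)) y

/-! ## occurrence witnessed by three words -/

/-- occurrence, on arbitrary finite index types, witnessed at the points `g_i v_i` of the three orbits -/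
def rpwOcc (lam mu xi : Vec n) (l₁ l₂ l₃ : List (Matrix (Ix n) (Ix n) ℂ)) : Prop :=
  ∃ (ι₁ ι₂ ι₃ : Type) (_ : Fintype ι₁) (_ : DecidableEq ι₁) (_ : Fintype ι₂) (_ : DecidableEq ι₂)
    (_ : Fintype ι₃) (_ : DecidableEq ι₃) (R₁ : StarRep Ty.D n ι₁) (R₂ : StarRep Ty.D n ι₂)
    (R₃ : StarRep Ty.D n ι₃) (T : (ι₁ → ℂ) →ₗ[ℂ] (ι₂ → ℂ) →ₗ[ℂ] (ι₃ → ℂ))
    (v₁ : ι₁ → ℂ) (v₂ : ι₂ → ℂ) (v₃ : ι₃ → ℂ),
    (∀ X, Ty.D.InG X → ∀ a b, (R₃.ρ X).mulVec (T a b)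
        = T ((R₁.ρ X).mulVec a) b + T a ((R₂.ρ X).mulVec b)) ∧
    IsHW R₁ v₁ lam ∧ IsHW R₂ v₂ mu ∧ IsHW R₃ v₃ xi ∧
    star (rpwWord R₃ l₃ v₃) ⬝ᵥ T (rpwWord R₁ l₁ v₁) (rpwWord R₂ l₂ v₂) ≠ 0

theorem rpw_occ_mul (lam mu xi lam' mu' xi' : Vec n) (l₁ l₂ l₃ : List (Matrix (Ix n) (Ix n) ℂ))
    (h : rpwOcc lam mu xi l₁ l₂ l₃) (h' : rpwOcc lam' mu' xi' l₁ l₂ l₃) :
    rpwOcc (lam + lam') (mu + mu') (xi + xi') l₁ l₂ l₃ := by
  obtain ⟨ι₁, ι₂, ι₃, _, _, _, _, _, _, R₁, R₂, R₃, T, v₁, v₂, v₃, hT, h₁, h₂, h₃, hne⟩ := h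
  obtain ⟨κ₁, κ₂, κ₃, _, _, _, _, _, _, S₁, S₂, S₃, T', w₁, w₂, w₃, hT', k₁, k₂, k₃, hne'⟩ := h'
  refine ⟨ι₁ × κ₁, ι₂ × κ₂, ι₃ × κ₃, inferInstance, inferInstance, inferInstance, inferInstance,
    inferInstance, inferInstance, R₁.kron S₁, R₂.kron S₂, R₃.kron S₃, rpwT T T', tmul v₁ w₁,
    tmul v₂ w₂, tmul v₃ w₃, ?_, isHW_kron _ _ _ _ _ _ h₁ k₁, isHW_kron _ _ _ _ _ _ h₂ k₂,
    isHW_kron _ _ _ _ _ _ h₃ k₃, ?_⟩
  · intro X hX x y
    exact rpw_T_equiv R₁ R₂ R₃ S₁ S₂ S₃ T T' X (hT X hX) (hT' X hX) x y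
  · rw [rpw_word_kron, rpw_word_kron, rpw_word_kron, rpw_T_tmul, rpw_dot_tmul]
    exact mul_ne_zero hne hne'

theorem rpw_occ_pow (lam mu xi : Vec n) (l₁ l₂ l₃ : List (Matrix (Ix n) (Ix n) ℂ))
    (h : rpwOcc lam mu xi l₁ l₂ l₃) (N : ℕ) :
    rpwOcc ((N + 1) • lam) ((N + 1) • mu) ((N + 1) • xi) l₁ l₂ l₃ := by
  induction N with
  | zero => simpa using h
  | succ N ih =>
    rw [succ_nsmul _ (N + 1), succ_nsmul _ (N + 1), succ_nsmul _ (N + 1)]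
    exact rpw_occ_mul _ _ _ _ _ _ _ _ _ ih h

theorem rpw_of_repOcc (lam mu xi : Vec n) (h : RepOcc Ty.D lam mu xi) :
    ∃ l₁ l₂ l₃ : List (Matrix (Ix n) (Ix n) ℂ), (∀ X ∈ l₁, Ty.D.InG X) ∧ (∀ X ∈ l₂, Ty.D.InG X) ∧
      (∀ X ∈ l₃, Ty.D.InG X) ∧ rpwOcc lam mu xi l₁ l₂ l₃ := by
  obtain ⟨m₁, m₂, m₃, R₁, R₂, R₃, T, v₁, v₂, v₃, hT, h₁, h₂, h₃, a, ha, b, hb, c, hc, hne⟩ := h
  obtain ⟨l₁, l₂, l₃, k₁, k₂, k₃, hw⟩ := rpw_extract R₁ R₂ R₃ T v₁ v₂ v₃ a ha b hb c hc hne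
  exact ⟨l₁, l₂, l₃, k₁, k₂, k₃, Fin m₁, Fin m₂, Fin m₃, inferInstance, inferInstance,
    inferInstance, inferInstance, inferInstance, inferInstance, R₁, R₂, R₃, T, v₁, v₂, v₃, hT, h₁,
    h₂, h₃, hw⟩

theorem rpw_to_repOcc (lam mu xi : Vec n) (l₁ l₂ l₃ : List (Matrix (Ix n) (Ix n) ℂ))
    (k₁ : ∀ X ∈ l₁, Ty.D.InG X) (k₂ : ∀ X ∈ l₂, Ty.D.InG X) (k₃ : ∀ X ∈ l₃, Ty.D.InG X)
    (h : rpwOcc lam mu xi l₁ l₂ l₃) : RepOcc Ty.D lam mu xi := by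
  obtain ⟨ι₁, ι₂, ι₃, _, _, _, _, _, _, R₁, R₂, R₃, T, v₁, v₂, v₃, hT, h₁, h₂, h₃, hne⟩ := h
  let e₁ := Fintype.equivFin ι₁
  let e₂ := Fintype.equivFin ι₂
  let e₃ := Fintype.equivFin ι₃
  let T' : (Fin (Fintype.card ι₁) → ℂ) →ₗ[ℂ] (Fin (Fintype.card ι₂) → ℂ) →ₗ[ℂ]
      (Fin (Fintype.card ι₃) → ℂ) :=
    (T.compl₁₂ (LinearMap.funLeft ℂ ℂ e₁) (LinearMap.funLeft ℂ ℂ e₂)).compr₂
      (LinearMap.funLeft ℂ ℂ e₃.symm)
  have hT' : ∀ a b, T' a b = (T (a ∘ e₁) (b ∘ e₂)) ∘ e₃.symm := fun a b => rfl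
  have hro : ∀ {ι : Type} [Fintype ι] [DecidableEq ι] (R : StarRep Ty.D n ι)
      (X : Matrix (Ix n) (Ix n) ℂ) (a : Fin (Fintype.card ι) → ℂ),
      (((R.reindex (Fintype.equivFin ι)).ρ X).mulVec a) ∘ (Fintype.equivFin ι) =
        (R.ρ X).mulVec (a ∘ (Fintype.equivFin ι)) := by
    intro ι _ _ R X a
    have := reindex_op R (Fintype.equivFin ι) X (a ∘ (Fintype.equivFin ι))
    rw [op_apply, op_apply] at this
    have h2 : (a ∘ (Fintype.equivFin ι)) ∘ (Fintype.equivFin ι).symm = a := by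
      funext x; simp
    rw [h2] at this
    rw [this]
    funext x; simp
  refine ⟨Fintype.card ι₁, Fintype.card ι₂, Fintype.card ι₃, R₁.reindex e₁, R₂.reindex e₂,
    R₃.reindex e₃, T', v₁ ∘ e₁.symm, v₂ ∘ e₂.symm, v₃ ∘ e₃.symm, ?_, reindex_isHW R₁ e₁ v₁ lam h₁,
    reindex_isHW R₂ e₂ v₂ mu h₂, reindex_isHW R₃ e₃ v₃ xi h₃,
    (rpwWord R₁ l₁ v₁) ∘ e₁.symm, ?_, (rpwWord R₂ l₂ v₂) ∘ e₂.symm, ?_,
    (rpwWord R₃ l₃ v₃) ∘ e₃.symm, ?_, ?_⟩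
  · intro X hX a b
    rw [hT', hT', hT', hro R₁ X a, hro R₂ X b]
    have := reindex_op R₃ e₃ X (T (a ∘ e₁) (b ∘ e₂))
    rw [op_apply, op_apply] at this
    rw [this, hT X hX]
    rfl
  · exact (reindex_cyc R₁ e₁ v₁ _).2 (rpw_word_mem R₁ _ (cyc_inv R₁ v₁) l₁ k₁ v₁ (mem_cyc R₁ v₁))
  · exact (reindex_cyc R₂ e₂ v₂ _).2 (rpw_word_mem R₂ _ (cyc_inv R₂ v₂) l₂ k₂ v₂ (mem_cyc R₂ v₂))
  · exact (reindex_cyc R₃ e₃ v₃ _).2 (rpw_word_mem R₃ _ (cyc_inv R₃ v₃) l₃ k₃ v₃ (mem_cyc R₃ v₃))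
  · rw [hT']
    have e1 : ((rpwWord R₁ l₁ v₁) ∘ e₁.symm) ∘ e₁ = rpwWord R₁ l₁ v₁ := by funext x; simp
    have e2 : ((rpwWord R₂ l₂ v₂) ∘ e₂.symm) ∘ e₂ = rpwWord R₂ l₂ v₂ := by funext x; simp
    rw [e1, e2]
    have e3 : ∀ c d : ι₃ → ℂ, star (c ∘ e₃.symm) ⬝ᵥ (d ∘ e₃.symm) = star c ⬝ᵥ d := by
      intro c d
      simp only [dotProduct]
      exact Equiv.sum_comp e₃.symm (fun i => star c i * d i)
    rw [e3]
    exact hne

theorem rpw_eqns_cite : True := by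
  have := @rpwWord.eq_1
  have := @rpwZ.eq_1
  have := @rpwT.eq_1
  have := @rpwOcc.eq_1
  trivial

theorem rpw_halfV_nsmul (N : ℕ) (L : Fin n → ℤ) : halfV (N • L) = N • halfV L := by
  funext i
  simp [halfV, mul_div_assoc]

/-- (T3) powers.  `Z = span {g v : g a word in exp (ρ X)}` is invariant (derivative of `t ↦ exp (t ρ X) a` stays in the closed subspace `Z`), so `Z = cyc v`; hence there are
words with `⟨g₃ v₃, T (g₁ v₁) (g₂ v₂)⟩ ≠ 0`; `(g v)^{⊗N} = g (v^{⊗N}) ∈ cyc (v^{⊗N})`; `T^{⊗N}`.  (Iterated `kron`; induction on `N` with the statement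
"∃ words g₁ g₂ g₃ fixed, for all N ...".) -/
theorem occ_smul (L M X : Fin n → ℤ) (h : Occ L M X) (N : ℕ) (hN : 1 ≤ N) :
    Occ (N • L) (N • M) (N • X) := by
  obtain ⟨N, rfl⟩ : ∃ k, N = k + 1 := ⟨N - 1, by omega⟩
  obtain ⟨l₁, l₂, l₃, k₁, k₂, k₃, hw⟩ := rpw_of_repOcc _ _ _ h
  show RepOcc Ty.D _ _ _
  rw [rpw_halfV_nsmul, rpw_halfV_nsmul, rpw_halfV_nsmul]
  exact rpw_to_repOcc _ _ _ l₁ l₂ l₃ k₁ k₂ k₃ (rpw_occ_pow _ _ _ _ _ _ hw N)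

end Claimed.Agent.R282
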