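import Claimed.Agent.R282.Rep.Tree

/-!
# Row 282, Rep, LEAF L-REP-SMALL (statements by helper103), ~300 lines
`occ_zero`: `m = 1`, `ρ = 0`.  `occ_dominant`: `rep_hw_dominant` (`halfV` injective), and `X/2` is a weight of `tsub ..`: `rep_occ_iff` + `rep_top` + `rep_ch_kron`-type weight bookkeeping.
-/

set_option autoImplicit false

namespace Claimed.Agent.R282

open Claims.C0456 Matrix

variable {n : ℕ}
variable {ι ι' ι₁ ι₂ ι₃ : Type} [Fintype ι] [DecidableEq ι] [Fintype ι'] [DecidableEq ι']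
  [Fintype ι₁] [DecidableEq ι₁] [Fintype ι₂] [DecidableEq ι₂] [Fintype ι₃] [DecidableEq ι₃]

theorem rsm_halfV_zero : halfV (0 : Fin n → ℤ) = 0 := by
  funext i; simp [halfV]

/-- (T5) -/
theorem occ_zero : Occ (0 : Fin n → ℤ) 0 0 := by
  show RepOcc Ty.D (halfV 0) (halfV 0) (halfV 0)
  rw [rsm_halfV_zero]
  let T : (Fin 1 → ℂ) →ₗ[ℂ] (Fin 1 → ℂ) →ₗ[ℂ] (Fin 1 → ℂ) :=
    LinearMap.mk₂ ℂ (fun a b _ => a 0 * b 0)
      (by intro a a' b; funext k; simp [add_mul])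
      (by intro c a b; funext k; simp [mul_assoc])
      (by intro a b b'; funext k; simp [mul_add])
      (by intro c a b; funext k; simp [mul_left_comm])
  have hρ : ∀ X, (rexTriv n).ρ X = 0 := fun X => rfl
  refine ⟨1, 1, 1, rexTriv n, rexTriv n, rexTriv n, T, fun _ => 1, fun _ => 1, fun _ => 1, ?_,
    rex_triv_isHW, rex_triv_isHW, rex_triv_isHW, fun _ => 1, mem_cyc _ _, fun _ => 1, mem_cyc _ _,
    fun _ => 1, mem_cyc _ _, ?_⟩
  · intro X _ a b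
    rw [hρ X]
    simp
  · show star (fun _ : Fin 1 => (1 : ℂ)) ⬝ᵥ (fun _ : Fin 1 => (1 : ℂ) * 1) ≠ 0
    simp [dotProduct]

theorem rsm_inQplus_add (x y : Fin n → ℤ) (hx : InQplus x) (hy : InQplus y) : InQplus (x + y) := by
  obtain ⟨c, rfl⟩ := hx
  obtain ⟨d, rfl⟩ := hy
  refine ⟨c + d, ?_⟩
  simp only [Pi.add_apply, add_smul, Finset.sum_add_distrib]

theorem rsm_dominant (hn : 2 ≤ n) (R : StarRep Ty.D n ι) (v : ι → ℂ) (L : Fin n → ℤ)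
    (h : IsHW R v (halfV L)) : IsDominantWeight2 L := by
  obtain ⟨L', hL', e⟩ := rep_hw_dominant hn R v _ h
  rw [halfV_injective e]
  exact hL'

/-- occurrence forces dominance and the root lattice condition -/
theorem occ_dominant (hn : 2 ≤ n) (L M X : Fin n → ℤ) (h : Occ L M X) :
    IsDominantWeight2 L ∧ IsDominantWeight2 M ∧ IsDominantWeight2 X ∧ InQplus (L + M - X) := by
  classical
  have h' := h
  obtain ⟨m₁, m₂, m₃, R₁, R₂, R₃, T, v₁, v₂, v₃, hT, h₁, h₂, h₃, -⟩ := h'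
  refine ⟨rsm_dominant hn R₁ v₁ L h₁, rsm_dominant hn R₂ v₂ M h₂, rsm_dominant hn R₃ v₃ X h₃, ?_⟩
  have hocc := (rep_occ_iff hn L M X R₁ R₂ v₁ v₂ h₁ h₂).1 h
  -- the weight `X/2` occurs in the tensor product
  have hm : (R₁.kron R₂).mult (tsub (R₁.cyc v₁) (R₂.cyc v₂)) (halfV X) ≠ 0 := by
    intro h0
    apply hocc
    have hb : (tsub (R₁.cyc v₁) (R₂.cyc v₂) ⊓ (R₁.kron R₂).wt (halfV X) :
        Submodule ℂ (Fin m₁ × Fin m₂ → ℂ)) = ⊥ := Submodule.finrank_eq_zero.1 h0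
    show Module.finrank ℂ (tsub (R₁.cyc v₁) (R₂.cyc v₂) ⊓ (R₁.kron R₂).wt (halfV X) ⊓
      (R₁.kron R₂).prim : Submodule ℂ (Fin m₁ × Fin m₂ → ℂ)) = 0
    rw [hb, bot_inf_eq]
    exact finrank_bot ℂ _
  let F : Finset (Fin n → ℤ) :=
    (wt_finite R₁).toFinset.preimage halfV (halfV_injective.injOn)
  have hF : ∀ χ : Vec n, R₁.mult (R₁.cyc v₁) χ ≠ 0 → ∃ γ ∈ F, χ = halfV γ := by
    intro χ hχ
    obtain ⟨γ, rfl, -⟩ := (rep_top R₁ v₁ L h₁).2 χ hχ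
    refine ⟨γ, ?_, rfl⟩
    refine Finset.mem_preimage.2 ((Set.Finite.mem_toFinset _).2 ?_)
    intro hbot
    apply hχ
    show Module.finrank ℂ (R₁.cyc v₁ ⊓ R₁.wt (halfV γ) : Submodule ℂ (Fin m₁ → ℂ)) = 0
    rw [hbot, inf_bot_eq]
    exact finrank_bot ℂ _
  have hch := rep_ch_kron R₁ R₂ _ _ (cyc_inv R₁ v₁) (cyc_inv R₂ v₂) F hF X
  have hne : (R₁.kron R₂).chZ (tsub (R₁.cyc v₁) (R₂.cyc v₂)) X ≠ 0 := Int.natCast_ne_zero.2 hm
  rw [hch] at hne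
  obtain ⟨δ, -, hδ⟩ := Finset.exists_ne_zero_of_sum_ne_zero hne
  have hδ1 : R₁.mult (R₁.cyc v₁) (halfV δ) ≠ 0 := by
    intro h0
    apply hδ
    show ((R₁.mult (R₁.cyc v₁) (halfV δ) : ℕ) : ℤ) * _ = 0
    rw [h0]; simp
  have hδ2 : R₂.mult (R₂.cyc v₂) (halfV (X - δ)) ≠ 0 := by
    intro h0
    apply hδ
    show _ * ((R₂.mult (R₂.cyc v₂) (halfV (X - δ)) : ℕ) : ℤ) = 0
    rw [h0]; simp
  obtain ⟨γ₁, e₁, q₁⟩ := (rep_top R₁ v₁ L h₁).2 _ hδ1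
  obtain ⟨γ₂, e₂, q₂⟩ := (rep_top R₂ v₂ M h₂).2 _ hδ2
  rw [← halfV_injective e₁] at q₁
  rw [← halfV_injective e₂] at q₂
  have := rsm_inQplus_add _ _ q₁ q₂
  have e : L - δ + (M - (X - δ)) = L + M - X := by abel
  rwa [e] at this

end Claimed.Agent.R282
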