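import Claimed.Agent.R282.Rep.Tree

/-!
# Row 282, Rep, LEAF L-REP-SYM : symmetry of the invariants (statements by helper103), ~1k lines
`occ_swap`: `T' a b = T b a`.
`occ_rot`: see the docstring.  Steps: (1) `cyc v` contains a vector `v⁻ ≠ 0` of weight `w₀ λ` (`rep_mult_weyl`, `w₀` = the element of `WD n` with `w₀ λ = - dual λ`: all signs if `n` even, all but the last if `n` odd), killed by all NEGATIVE root vectors (weights `≤ λ` are `W`-stable, so `≥ w₀ λ`);
(2) in `R.dual` the vector `star v⁻` is a h.w. vector of weight `- w₀ λ = halfV (dualWeightD K)` and `cyc` of it is `star (cyc v)`; (3) an equivariant `T : V₁ × V₂ → V₃` with `V₃ = dual of V_K` gives the invariant trilinear form `(a,b,c) ↦ ∑ (T a b)_k c_k` and back.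
-/

set_option autoImplicit false

namespace Claimed.Agent.R282

open Claims.C0456 Matrix

variable {n : ℕ}
variable {ι ι' ι₁ ι₂ ι₃ : Type} [Fintype ι] [DecidableEq ι] [Fintype ι'] [DecidableEq ι']
  [Fintype ι₁] [DecidableEq ι₁] [Fintype ι₂] [DecidableEq ι₂] [Fintype ι₃] [DecidableEq ι₃]

/-- (T2a) -/
theorem occ_swap (L M X : Fin n → ℤ) : Occ L M X ↔ Occ M L X := by
  have key : ∀ L M : Fin n → ℤ, Occ L M X → Occ M L X := by
    rintro L M ⟨m₁, m₂, m₃, R₁, R₂, R₃, T, v₁, v₂, v₃, hT, h₁, h₂, h₃, a, ha, b, hb, c, hc, hne⟩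
    refine ⟨m₂, m₁, m₃, R₂, R₁, R₃, T.flip, v₂, v₁, v₃, ?_, h₂, h₁, h₃, b, hb, a, ha, c, hc, ?_⟩
    · intro Y hY b' a'
      simp only [LinearMap.flip_apply]
      rw [hT Y hY a' b', add_comm]
    · simpa only [LinearMap.flip_apply] using hne
  exact ⟨key L M, key M L⟩

/-! ## the conjugate of a subspace, the dual representation -/

/-- the complex conjugate of a subspace -/
def rsyStar (S : Submodule ℂ (ι → ℂ)) : Submodule ℂ (ι → ℂ) where
  carrier := {a | star a ∈ S}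
  add_mem' := by
    intro a b ha hb
    show star (a + b) ∈ S
    rw [star_add]
    exact S.add_mem ha hb
  zero_mem' := by
    show star (0 : ι → ℂ) ∈ S
    rw [star_zero]
    exact S.zero_mem
  smul_mem' := by
    intro c a ha
    show star (c • a) ∈ S
    rw [star_smul]
    exact S.smul_mem _ ha


omit [DecidableEq ι] in
theorem rsy_mem_star (S : Submodule ℂ (ι → ℂ)) (a : ι → ℂ) : a ∈ rsyStar S ↔ star a ∈ S := Iff.rfl

theorem rsy_dual_op (R : StarRep Ty.D n ι) (X : Matrix (Ix n) (Ix n) ℂ) (hX : Ty.D.InG X)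
    (a : ι → ℂ) : R.dual.op X (star a) = - star (R.op Xᴴ a) := by
  rw [op_apply, op_apply, R.star X hX, Matrix.star_mulVec, conjTranspose_conjTranspose]
  show (-(R.ρ X)ᵀ) *ᵥ star a = _
  rw [neg_mulVec, mulVec_transpose]

theorem rsy_dual_op' (R : StarRep Ty.D n ι) (X : Matrix (Ix n) (Ix n) ℂ) (hX : Ty.D.InG X)
    (a : ι → ℂ) : star (R.op X a) = - R.dual.op Xᴴ (star a) := by
  rw [rsy_dual_op R Xᴴ (inG_conjTranspose X hX), conjTranspose_conjTranspose, neg_neg]

theorem rsy_inv_star (R : StarRep Ty.D n ι) (S : Submodule ℂ (ι → ℂ)) (hS : R.Inv S) :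
    R.dual.Inv (rsyStar S) := by
  intro X hX a ha
  rw [rsy_mem_star] at ha ⊢
  have h := rsy_dual_op R X hX (star a)
  rw [star_star] at h
  rw [h, star_neg, star_star]
  exact S.neg_mem (hS _ (inG_conjTranspose X hX) _ ha)

theorem rsy_inv_star' (R : StarRep Ty.D n ι) (S : Submodule ℂ (ι → ℂ)) (hS : R.dual.Inv S) :
    R.Inv (rsyStar S) := by
  intro X hX a ha
  rw [rsy_mem_star] at ha ⊢
  rw [rsy_dual_op' R X hX]
  exact S.neg_mem (hS _ (inG_conjTranspose X hX) _ ha)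

theorem rsy_dot_neg (χ x : Vec n) : dot (-χ) x = - dot χ x := by
  simp [dot, Finset.sum_neg_distrib]

theorem rsy_wt_star (R : StarRep Ty.D n ι) (χ : Vec n) (a : ι → ℂ) (ha : a ∈ R.wt χ) :
    star a ∈ R.dual.wt (-χ) := by
  rw [mem_wt] at ha ⊢
  intro x
  rw [rsy_dual_op R _ (inG_Hc x), Hc_conjTranspose, ha x, star_smul, rsy_dot_neg]
  simp

theorem rsy_wt_star' (R : StarRep Ty.D n ι) (χ : Vec n) (a : ι → ℂ) (ha : a ∈ R.dual.wt χ) :
    star a ∈ R.wt (-χ) := by
  rw [mem_wt] at ha ⊢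
  intro x
  have h := rsy_dual_op' R _ (inG_Hc x) (star a)
  rw [Hc_conjTranspose, star_star, ha x] at h
  have h2 := congrArg star h
  rw [star_star, star_neg, star_smul] at h2
  rw [h2, rsy_dot_neg]
  simp

theorem rsy_cyc_star (R : StarRep Ty.D n ι) (u c : ι → ℂ) (hc : c ∈ R.cyc u) :
    star c ∈ R.dual.cyc (star u) := by
  have h := cyc_le R u (rsyStar (R.dual.cyc (star u))) (rsy_inv_star' R _ (cyc_inv R.dual _))
    (mem_cyc R.dual (star u))
  exact h hc

/-! ## the longest element -/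

/-- the signs of the longest element: all signs if `n` is even, all but the last if `n` is odd -/
def rsyS0 (n : ℕ) : Fin n → Bool := fun i => if Even n then true else decide ((i : ℕ) + 1 ≠ n)

theorem rsy_S0_even (n : ℕ) : Even (Finset.univ.filter fun i => rsyS0 n i = true).card := by
  by_cases hn : Even n
  · have : (Finset.univ.filter fun i => rsyS0 n i = true) = Finset.univ := by
      ext i; simp [rsyS0, hn]
    rw [this, Finset.card_univ, Fintype.card_fin]
    exact hn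
  · have hpos : 0 < n := by
      rcases Nat.eq_zero_or_pos n with h | h
      · exact absurd (h ▸ Even.zero) hn
      · exact h
    have : (Finset.univ.filter fun i => rsyS0 n i = true) =
        Finset.univ.erase (⟨n - 1, by omega⟩ : Fin n) := by
      ext i
      simp only [rsyS0, hn, if_false, decide_eq_true_eq, Finset.mem_filter, Finset.mem_univ,
        true_and, Finset.mem_erase, and_true, ne_eq, Fin.ext_iff]
      omega
    rw [this, Finset.card_erase_of_mem (Finset.mem_univ _), Finset.card_univ, Fintype.card_fin]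
    rcases Nat.not_even_iff_odd.mp hn with ⟨k, hk⟩
    exact ⟨k, by omega⟩

/-- the longest element of `W(D_n)` -/
def rsyW0 (n : ℕ) : WD n := ⟨1, rsyS0 n, rsy_S0_even n⟩

theorem rsy_eqns_cite : True := by
  have := @rsyStar.eq_1
  have := @rsyS0.eq_1
  have := @rsyW0.eq_1
  trivial

theorem rsy_W0_act (x : Vec n) (i : Fin n) : (rsyW0 n).act x i = sgnB (rsyS0 n i) * x i := rfl

theorem rsy_W0_half (L : Fin n → ℤ) : (rsyW0 n).act (halfV L) = - halfV (dualWeightD L) := by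
  funext i
  rw [rsy_W0_act]
  by_cases hn : Even n
  · simp [rsyS0, hn, sgnB, halfV, dualWeightD]
  · by_cases hi : (i : ℕ) + 1 = n
    · simp [rsyS0, hn, sgnB, halfV, dualWeightD, hi, neg_div]
    · simp [rsyS0, hn, sgnB, halfV, dualWeightD, hi]

theorem rsy_W0_rho (x : Vec n) : dot ((rsyW0 n).act x) (rhoV n) = - dot x (rhoV n) := by
  unfold dot
  rw [← Finset.sum_neg_distrib]
  refine Finset.sum_congr rfl fun i _ => ?_
  rw [rsy_W0_act]
  by_cases hn : Even n
  · simp [rsyS0, hn, sgnB]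
  · by_cases hi : (i : ℕ) + 1 = n
    · have : rhoV n i = 0 := by
        unfold rhoV
        have : ((i : ℕ) : ℝ) + 1 = (n : ℝ) := by exact_mod_cast hi
        linarith
      rw [this]; simp
    · simp [rsyS0, hn, sgnB, hi]

theorem rsy_dual_dual (K : Fin n → ℤ) : dualWeightD (dualWeightD K) = K := by
  funext i
  by_cases hn : Even n
  · simp [dualWeightD, hn]
  · by_cases hi : (i : ℕ) + 1 = n
    · simp [dualWeightD, hn, hi]
    · simp [dualWeightD, hn, hi]

/-- the height of an element of `Q₊` is nonnegative -/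
theorem rsy_qplus_height (q : Fin n → ℤ) (hq : InQplus q) : 0 ≤ dot (halfV q) (rhoV n) := by
  obtain ⟨c, rfl⟩ := hq
  have h1 : dot (halfV (∑ r, c r • posRoot2 r.1.1 r.1.2.1 r.1.2.2)) (rhoV n) =
      ∑ r : {r : Fin n × Fin n × Bool // r.1 < r.2.1},
        (c r : ℝ) * dot (halfV (posRoot2 r.1.1 r.1.2.1 r.1.2.2)) (rhoV n) := by
    unfold dot halfV
    simp only [Finset.sum_apply, Pi.smul_apply, Int.cast_sum, Finset.sum_div, Finset.sum_mul,
      Finset.mul_sum]
    rw [Finset.sum_comm]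
    refine Finset.sum_congr rfl fun r _ => Finset.sum_congr rfl fun i _ => ?_
    simp only [nsmul_eq_mul]
    push_cast
    ring
  rw [h1]
  refine Finset.sum_nonneg fun r _ => mul_nonneg (Nat.cast_nonneg _) ?_
  obtain ⟨⟨i, j, p⟩, hij⟩ := r
  simp only at hij ⊢
  rw [halfV_posRoot2 i j hij p]
  have hij' : (i : ℕ) < (j : ℕ) := hij
  have hjn : (j : ℕ) < n := j.2
  have e : dot (⟨i, j, ne_of_lt hij, false, !p⟩ : RootD n).vec (rhoV n) =
      rhoV n i + sgnB (!p) * rhoV n j := by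
    unfold dot RootD.vec
    simp only [add_mul, ite_mul, zero_mul, Finset.sum_add_distrib, Finset.sum_ite_eq',
      Finset.mem_univ, if_true]
    simp [sgnB]
  rw [e]
  have hi : (i : ℝ) + 1 ≤ (j : ℝ) := by exact_mod_cast hij'
  have hj : (j : ℝ) + 1 ≤ (n : ℝ) := by exact_mod_cast hjn
  unfold rhoV
  cases p
  · simp only [Bool.not_false, sgnB, if_true]; linarith
  · simp only [Bool.not_true, sgnB]; simp only [Bool.false_eq_true, if_false]; linarith

/-! ## the highest weight vector of the dual -/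

theorem rsy_exists_of_mult (R : StarRep Ty.D n ι) (S : Submodule ℂ (ι → ℂ)) (χ : Vec n)
    (h : R.mult S χ ≠ 0) : ∃ a, a ∈ S ∧ a ∈ R.wt χ ∧ a ≠ 0 := by
  have hne : (S ⊓ R.wt χ : Submodule ℂ (ι → ℂ)) ≠ ⊥ := by
    intro hb
    apply h
    unfold StarRep.mult
    rw [hb]
    exact finrank_bot ℂ (ι → ℂ)
  obtain ⟨a, ha, ha0⟩ := Submodule.exists_mem_ne_zero_of_ne_bot hne
  exact ⟨a, ha.1, ha.2, ha0⟩

theorem rsy_mult_of_exists (R : StarRep Ty.D n ι) (S : Submodule ℂ (ι → ℂ)) (χ : Vec n)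
    (a : ι → ℂ) (ha : a ∈ S) (hw : a ∈ R.wt χ) (h0 : a ≠ 0) : R.mult S χ ≠ 0 := by
  intro h
  unfold StarRep.mult at h
  rw [Submodule.finrank_eq_zero] at h
  have : a ∈ (S ⊓ R.wt χ : Submodule ℂ (ι → ℂ)) := ⟨ha, hw⟩
  rw [h] at this
  exact h0 ((Submodule.mem_bot ℂ).mp this)

theorem rsy_dot_sub (x y z : Vec n) : dot (x - y) z = dot x z - dot y z := by
  simp [dot, sub_mul, Finset.sum_sub_distrib]

/-- the dual of the cyclic module of a highest weight vector of weight `L/2` is the cyclic module of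
a highest weight vector of weight `dualWeightD L / 2` -/
theorem rsy_dual_hw (R : StarRep Ty.D n ι) (v : ι → ℂ) (L : Fin n → ℤ) (h : IsHW R v (halfV L)) :
    ∃ u : ι → ℂ, IsHW R.dual (star u) (halfV (dualWeightD L)) ∧
      ∀ c ∈ R.cyc v, star c ∈ R.dual.cyc (star u) := by
  have hinv := cyc_inv R v
  obtain ⟨htop, hle⟩ := rep_top R v L h
  have hm : R.mult (R.cyc v) ((rsyW0 n).act (halfV L)) ≠ 0 := by
    rw [rep_mult_weyl R _ hinv, htop]; exact one_ne_zero
  obtain ⟨u, huS, huw, hu0⟩ := rsy_exists_of_mult R _ _ hm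
  have hsu0 : star u ≠ 0 := by
    intro h0
    apply hu0
    have := congrArg star h0
    rwa [star_star, star_zero] at this
  have hw : star u ∈ R.dual.wt (halfV (dualWeightD L)) := by
    have := rsy_wt_star R _ u huw
    rwa [rsy_W0_half, neg_neg] at this
  have hprim : star u ∈ R.dual.prim := by
    refine prim_of_max R.dual (rsyStar (R.cyc v)) (rsy_inv_star R _ hinv) (halfV (dualWeightD L))
      ?_ (star u) ⟨?_, hw⟩
    · intro χ' hχ'
      obtain ⟨a, haS, haw, ha0⟩ := rsy_exists_of_mult R.dual _ _ hχ'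
      have hsa0 : star a ≠ 0 := by
        intro h0
        apply ha0
        have := congrArg star h0
        rwa [star_star, star_zero] at this
      have h1 : R.mult (R.cyc v) (-χ') ≠ 0 :=
        rsy_mult_of_exists R _ _ (star a) haS (rsy_wt_star' R _ a haw) hsa0
      have h2 : R.mult (R.cyc v) ((rsyW0 n).act (-χ')) ≠ 0 := by
        rw [rep_mult_weyl R _ hinv]; exact h1
      obtain ⟨γ, hγ, hq⟩ := hle _ h2
      have h3 := rsy_qplus_height _ hq
      rw [halfV_sub, rsy_dot_sub, ← hγ, rsy_W0_rho, rsy_dot_neg, neg_neg] at h3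
      have h4 := rsy_W0_rho (halfV L)
      rw [rsy_W0_half, rsy_dot_neg] at h4
      linarith
    · show star (star u) ∈ R.cyc v
      rw [star_star]; exact huS
  refine ⟨u, (isHW_iff R.dual _ _).mpr ⟨hsu0, hw, hprim⟩, ?_⟩
  intro c hc
  have hcyc : R.cyc u = R.cyc v := by
    rcases rep_irred R v _ h (R.cyc u) (cyc_inv R u) (cyc_le R u _ hinv huS) with hb | he
    · exfalso
      have := mem_cyc R u
      rw [hb] at this
      exact hu0 ((Submodule.mem_bot ℂ).mp this)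
    · exact he
  exact rsy_cyc_star R u c (hcyc ▸ hc)

/-! ## rotation of a bilinear map -/

/-- `T' a γ = (b ↦ γ · T a b)` -/
noncomputable def rsyRot (T : (ι₁ → ℂ) →ₗ[ℂ] (ι₂ → ℂ) →ₗ[ℂ] (ι₃ → ℂ)) :
    (ι₁ → ℂ) →ₗ[ℂ] (ι₃ → ℂ) →ₗ[ℂ] (ι₂ → ℂ) :=
  LinearMap.mk₂ ℂ (fun a γ => γ ᵥ* LinearMap.toMatrix' (T a))
    (by intro a a' γ; simp only [map_add, vecMul_add])
    (by intro c a γ; simp only [map_smul, vecMul_smul])
    (by intro a γ γ'; simp only [add_vecMul])
    (by intro c a γ; simp only [smul_vecMul])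

theorem rsy_eqns_cite2 : True := by
  have := @rsyRot.eq_1
  trivial

omit [Fintype ι₁] in
theorem rsy_rot_dot (T : (ι₁ → ℂ) →ₗ[ℂ] (ι₂ → ℂ) →ₗ[ℂ] (ι₃ → ℂ)) (a : ι₁ → ℂ) (γ : ι₃ → ℂ)
    (b : ι₂ → ℂ) : rsyRot T a γ ⬝ᵥ b = γ ⬝ᵥ T a b := by
  show (γ ᵥ* LinearMap.toMatrix' (T a)) ⬝ᵥ b = _
  rw [← dotProduct_mulVec, LinearMap.toMatrix'_mulVec]

theorem rsy_rot_equiv (R₁ : StarRep Ty.D n ι₁) (R₂ : StarRep Ty.D n ι₂) (R₃ : StarRep Ty.D n ι₃)
    (T : (ι₁ → ℂ) →ₗ[ℂ] (ι₂ → ℂ) →ₗ[ℂ] (ι₃ → ℂ)) (X : Matrix (Ix n) (Ix n) ℂ)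
    (hT : ∀ a b, (R₃.ρ X).mulVec (T a b) = T ((R₁.ρ X).mulVec a) b + T a ((R₂.ρ X).mulVec b))
    (a : ι₁ → ℂ) (γ : ι₃ → ℂ) :
    (R₂.dual.ρ X).mulVec (rsyRot T a γ) =
      rsyRot T ((R₁.ρ X).mulVec a) γ + rsyRot T a ((R₃.dual.ρ X).mulVec γ) := by
  apply _root_.dotProduct_eq
  intro b
  rw [add_dotProduct, rsy_rot_dot, rsy_rot_dot]
  show ((-(R₂.ρ X)ᵀ) *ᵥ rsyRot T a γ) ⬝ᵥ b = _ + ((-(R₃.ρ X)ᵀ) *ᵥ γ) ⬝ᵥ T a b
  rw [neg_mulVec, neg_mulVec, mulVec_transpose, mulVec_transpose, neg_dotProduct, neg_dotProduct,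
    ← dotProduct_mulVec, ← dotProduct_mulVec, rsy_rot_dot, hT a b, dotProduct_add]
  ring

theorem rsy_rot_fwd (L M K : Fin n → ℤ) (h : Occ L M (dualWeightD K)) :
    Occ L K (dualWeightD M) := by
  obtain ⟨m₁, m₂, m₃, R₁, R₂, R₃, T, v₁, v₂, v₃, hT, h₁, h₂, h₃, a, ha, b, hb, c, hc, hne⟩ := h
  obtain ⟨u₂, hu₂, hc₂⟩ := rsy_dual_hw R₂ v₂ M h₂
  obtain ⟨u₃, hu₃, hc₃⟩ := rsy_dual_hw R₃ v₃ (dualWeightD K) h₃
  rw [rsy_dual_dual] at hu₃
  refine ⟨m₁, m₃, m₂, R₁, R₃.dual, R₂.dual, rsyRot T, v₁, star u₃, star u₂, ?_, h₁, hu₃, hu₂,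
    a, ha, star c, hc₃ c hc, star b, hc₂ b hb, ?_⟩
  · intro X hX a' γ
    exact rsy_rot_equiv R₁ R₂ R₃ T X (hT X hX) a' γ
  · rw [star_star, dotProduct_comm, rsy_rot_dot]
    exact hne

/-- (T2b) `(V(L) ⊗ V(M) ⊗ V(K))^G ≠ 0` is symmetric.  Dual representation `StarRep.dual`; its highest weight vector is the conjugate of a vector of the lowest weight
`w₀ K`, which exists by (W1); `- w₀ K = dualWeightD K`; equivariant bilinear maps `V₁ × V₂ → V₃^*` = invariant trilinear forms. -/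
theorem occ_rot (hn : 2 ≤ n) (L M K : Fin n → ℤ) (hL : IsDominantWeight2 L) (hM : IsDominantWeight2 M)
    (hK : IsDominantWeight2 K) : Occ L M (dualWeightD K) ↔ Occ L K (dualWeightD M) :=
  ⟨rsy_rot_fwd L M K, rsy_rot_fwd L K M⟩

end Claimed.Agent.R282
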