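import Claimed.Agent.R282.Rep.Tree

/-!
# Row 282, Rep, LEAF L-REP-WCF (glue; statement by helper103), ~400 lines
`weylChar_of_freudenthal` applied to `m = R.chZ (R.cyc v)`: finite support (`Api`: finitely many weights; `halfV` injective), `rep_top`, `rep_mult_weyl` (`WD ↔ (σ, s)`: `halfV (signedPermAct σ s γ) = (⟨σ, s, h⟩ : WD n).act (halfV γ)`),
`rep_freudenthal` (`posSum` counts every positive root twice; `halfV (posRoot2 i j plus)` = the vector of the root; multiply by `4`; casts `ℝ ↔ ℤ`).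
-/

set_option autoImplicit false

namespace Claimed.Agent.R282

open Claims.C0456 Matrix

variable {n : ℕ}
variable {ι ι' ι₁ ι₂ ι₃ : Type} [Fintype ι] [DecidableEq ι] [Fintype ι'] [DecidableEq ι']
  [Fintype ι₁] [DecidableEq ι₁] [Fintype ι₂] [DecidableEq ι₂] [Fintype ι₃] [DecidableEq ι₃]

/-- the vector `± e_i ± e_j`, total version -/
def rwcV (i j : Fin n) (s t : Bool) : Vec n :=
  fun k => (if k = i then sgnB s else 0) + (if k = j then sgnB t else 0)

theorem rwc_V_swap (i j : Fin n) (s t : Bool) : rwcV i j s t = rwcV j i t s := by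
  funext k
  simp only [rwcV, add_comm]

open scoped Classical in
theorem rwc_term (φ : Vec n → ℝ) (i j : Fin n) (s t : Bool) :
    (if h : i ≠ j then (if (⟨i, j, h, s, t⟩ : RootD n).Pos then φ (⟨i, j, h, s, t⟩ : RootD n).vec
      else 0) else 0) =
    (if i < j ∧ s = false then φ (rwcV i j s t) else 0) +
      (if j < i ∧ t = false then φ (rwcV i j s t) else 0) := by
  rcases lt_trichotomy i j with h | h | h
  · rw [dif_pos (ne_of_lt h)]
    simp only [rwd_pos_iff i j h, h, true_and, not_lt_of_gt h, false_and, if_false, add_zero]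
    rfl
  · subst h
    simp
  · rw [dif_pos (ne_of_gt h)]
    simp only [rwd_pos_iff' i j h, h, true_and, not_lt_of_gt h, false_and, if_false, zero_add]
    rfl

/-- `posSum` counts every positive root twice -/
theorem rwc_posSum (φ : Vec n → ℝ) :
    posSum (fun β : RootD n => φ β.vec) =
      2 * ∑ r : {r : Fin n × Fin n × Bool // r.1 < r.2.1}, φ (rwcV r.1.1 r.1.2.1 false (!r.1.2.2)) := by
  have h1 : posSum (fun β : RootD n => φ β.vec) =
      ∑ i : Fin n, ∑ j : Fin n, ((if i < j then φ (rwcV i j false false) + φ (rwcV i j false true)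
        else 0) + (if j < i then φ (rwcV j i false false) + φ (rwcV j i false true) else 0)) := by
    unfold posSum
    apply Finset.sum_congr rfl
    intro i _
    apply Finset.sum_congr rfl
    intro j _
    simp only [rwc_term φ, Fintype.sum_bool]
    rw [rwc_V_swap i j false false, rwc_V_swap i j true false]
    by_cases h1 : i < j
    · simp [h1, not_lt_of_gt h1, rwc_V_swap j i false false]
      ring
    · by_cases h2 : j < i
      · simp [h2, not_lt_of_gt h2]
        ring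
      · simp [h1, h2]
  have h2 : ∑ r : {r : Fin n × Fin n × Bool // r.1 < r.2.1},
      φ (rwcV r.1.1 r.1.2.1 false (!r.1.2.2)) =
      ∑ i : Fin n, ∑ j : Fin n, (if i < j then φ (rwcV i j false false) + φ (rwcV i j false true)
        else 0) := by
    rw [← Finset.sum_subtype (Finset.univ.filter fun r : Fin n × Fin n × Bool => r.1 < r.2.1)
      (by simp) (fun r => φ (rwcV r.1 r.2.1 false (!r.2.2))), Finset.sum_filter,
      Fintype.sum_prod_type]
    apply Finset.sum_congr rfl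
    intro i _
    rw [Fintype.sum_prod_type]
    apply Finset.sum_congr rfl
    intro j _
    simp only [Fintype.sum_bool]
    by_cases h1 : i < j
    · simp [h1]
    · simp [h1]
  rw [h1, h2]
  simp only [Finset.sum_add_distrib]
  rw [Finset.sum_comm (f := fun i j : Fin n =>
    if j < i then φ (rwcV j i false false) + φ (rwcV j i false true) else 0)]
  ring

theorem rwc_halfV_nsmul (k : ℕ) (x : Fin n → ℤ) : halfV (k • x) = (k : ℝ) • halfV x := by
  funext i
  simp only [halfV, Pi.smul_apply, smul_eq_mul, nsmul_eq_mul, Int.cast_mul, Int.cast_natCast]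
  ring

theorem rwc_dot_halfV (a b : Fin n → ℤ) :
    dot (halfV a) (halfV b) = ((∑ i, a i * b i : ℤ) : ℝ) / 4 := by
  simp only [dot, halfV, Int.cast_sum, Int.cast_mul, Finset.sum_div]
  apply Finset.sum_congr rfl
  intro i _
  ring

theorem rwc_mult_ne (R : StarRep Ty.D n ι) (S : Submodule ℂ (ι → ℂ)) (χ : Vec n)
    (h : R.mult S χ ≠ 0) : R.wt χ ≠ ⊥ := by
  intro h0
  apply h
  unfold StarRep.mult
  rw [h0, inf_bot_eq]
  exact finrank_bot ℂ (ι → ℂ)

theorem rwc_vec_i (β : RootD n) : β.vec β.i = sgnB β.si := by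
  simp [RootD.vec, β.ne]

/-- far away in a root direction there are no weights -/
theorem rwc_exists_K (R : StarRep Ty.D n ι) (S : Submodule ℂ (ι → ℂ)) (χ : Vec n) :
    ∃ K : ℕ, ∀ k, K ≤ k → ∀ β : RootD n, R.mult S (χ + (k : ℝ) • β.vec) = 0 := by
  obtain ⟨B, hB⟩ := ((wt_finite R).image (fun x : Vec n => ‖x‖)).bddAbove
  obtain ⟨K, hK⟩ := exists_nat_gt (B + ‖χ‖)
  refine ⟨K, fun k hk β => ?_⟩
  by_contra hne
  have h1 : ‖χ + (k : ℝ) • β.vec‖ ≤ B := hB ⟨_, rwc_mult_ne R S _ hne, rfl⟩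
  have h2 := norm_le_pi_norm (χ + (k : ℝ) • β.vec) β.i
  have h3 := norm_le_pi_norm χ β.i
  rw [Pi.add_apply, Pi.smul_apply, rwc_vec_i, smul_eq_mul, Real.norm_eq_abs] at h2
  rw [Real.norm_eq_abs] at h3
  have h4 : (K : ℝ) ≤ (k : ℝ) := by exact_mod_cast hk
  have h5 : (k : ℝ) - |χ β.i| ≤ |χ β.i + (k : ℝ) * sgnB β.si| := by
    have hk0 : (0 : ℝ) ≤ (k : ℝ) := Nat.cast_nonneg k
    rcases Bool.eq_false_or_eq_true β.si with hs | hs
    · rw [hs]
      simp only [sgnB, if_true]
      have e1 := neg_abs_le (χ β.i + (k : ℝ) * -1)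
      have e2 := le_abs_self (χ β.i)
      linarith
    · rw [hs]
      simp only [sgnB]
      have e1 := le_abs_self (χ β.i + (k : ℝ) * 1)
      have e2 := neg_abs_le (χ β.i)
      simp only [Bool.false_eq_true, if_false]
      linarith
  linarith

/-- **Weyl character formula** (GLUE leaf: `weylChar_of_freudenthal` + (W1), (W2), (W3); only casts `ℝ ↔ ℤ`, `WD ↔ (σ, s)`, `posSum ↔ ∑ r`). -/
theorem rep_wcf (hn : 2 ≤ n) (R : StarRep Ty.D n ι) (v : ι → ℂ) (L : Fin n → ℤ)
    (hL : IsDominantWeight2 L) (h : IsHW R v (halfV L)) : IsWeylChar2 L (R.chZ (R.cyc v)) := by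
  have htop := rep_top R v L h
  apply weylChar_of_freudenthal hn L hL
  · -- finite support
    have h1 : (halfV ⁻¹' {χ : Vec n | R.wt χ ≠ ⊥} : Set (Fin n → ℤ)).Finite :=
      (wt_finite R).preimage halfV_injective.injOn
    refine h1.subset ?_
    intro γ hγ
    refine rwc_mult_ne R (R.cyc v) _ ?_
    intro h0
    apply hγ
    simp only [StarRep.chZ, h0, Nat.cast_zero]
  · simp only [StarRep.chZ, htop.1, Nat.cast_one]
  · intro γ hγ
    have h1 : R.mult (R.cyc v) (halfV γ) ≠ 0 := by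
      intro h0
      apply hγ
      simp only [StarRep.chZ, h0, Nat.cast_zero]
    obtain ⟨γ', e1, e2⟩ := htop.2 _ h1
    rw [halfV_injective e1]
    exact e2
  · intro σ s hs γ
    simp only [StarRep.chZ]
    rw [halfV_spa σ s hs, rep_mult_weyl R _ (cyc_inv R v)]
  · intro γ K hK
    obtain ⟨K0, hK0⟩ := rwc_exists_K R (R.cyc v) (halfV γ)
    have hF := rep_freudenthal R v (halfV L) h (halfV γ) (max K K0)
      (fun k hk β => hK0 k ((le_max_right _ _).trans hk) β)
    rw [rwc_posSum (fun x => ∑ k ∈ Finset.Ico 1 (max K K0),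
      dot (halfV γ + (k : ℝ) • x) x * (R.mult (R.cyc v) (halfV γ + (k : ℝ) • x) : ℝ))] at hF
    have hv : ∀ r : {r : Fin n × Fin n × Bool // r.1 < r.2.1},
        rwcV r.1.1 r.1.2.1 false (!r.1.2.2) = halfV (posRoot2 r.1.1 r.1.2.1 r.1.2.2) := by
      intro r
      rw [halfV_posRoot2 _ _ r.2]
      rfl
    have hsum : ∀ r : {r : Fin n × Fin n × Bool // r.1 < r.2.1},
        ∑ k ∈ Finset.Ico 1 (max K K0),
          dot (halfV γ + (k : ℝ) • rwcV r.1.1 r.1.2.1 false (!r.1.2.2))
            (rwcV r.1.1 r.1.2.1 false (!r.1.2.2)) *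
            (R.mult (R.cyc v) (halfV γ + (k : ℝ) • rwcV r.1.1 r.1.2.1 false (!r.1.2.2)) : ℝ) =
        ((∑ k ∈ Finset.Ico 1 K,
          (∑ i, (γ + k • posRoot2 r.1.1 r.1.2.1 r.1.2.2) i * posRoot2 r.1.1 r.1.2.1 r.1.2.2 i) *
            R.chZ (R.cyc v) (γ + k • posRoot2 r.1.1 r.1.2.1 r.1.2.2) : ℤ) : ℝ) / 4 := by
      intro r
      rw [hv r]
      have hterm : ∀ k : ℕ, dot (halfV γ + (k : ℝ) • halfV (posRoot2 r.1.1 r.1.2.1 r.1.2.2))
            (halfV (posRoot2 r.1.1 r.1.2.1 r.1.2.2)) *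
            (R.mult (R.cyc v) (halfV γ + (k : ℝ) • halfV (posRoot2 r.1.1 r.1.2.1 r.1.2.2)) : ℝ) =
          (((∑ i, (γ + k • posRoot2 r.1.1 r.1.2.1 r.1.2.2) i * posRoot2 r.1.1 r.1.2.1 r.1.2.2 i) *
            R.chZ (R.cyc v) (γ + k • posRoot2 r.1.1 r.1.2.1 r.1.2.2) : ℤ) : ℝ) / 4 := by
        intro k
        rw [← rwc_halfV_nsmul, ← halfV_add, rwc_dot_halfV]
        simp only [StarRep.chZ]
        push_cast
        ring
      simp only [hterm]
      rw [← Finset.sum_div, Int.cast_sum]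
      congr 1
      symm
      apply Finset.sum_subset
      · intro k hk
        rw [Finset.mem_Ico] at hk ⊢
        exact ⟨hk.1, lt_of_lt_of_le hk.2 (le_max_left _ _)⟩
      · intro k _ hk2
        have hk3 : K ≤ k := by
          by_contra hlt
          apply hk2
          rw [Finset.mem_Ico]
          rename_i hk1
          rw [Finset.mem_Ico] at hk1
          exact ⟨hk1.1, not_le.1 hlt⟩
        rw [hK k hk3 r, mul_zero, Int.cast_zero]
    simp only [hsum] at hF
    rw [← halfV_rho2, ← halfV_add, ← halfV_add, rwc_dot_halfV, rwc_dot_halfV,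
      ← Finset.sum_div] at hF
    have hF2 : (((∑ i, (L i + rho2 n i) ^ 2) - ∑ i, (γ i + rho2 n i) ^ 2) *
        R.chZ (R.cyc v) γ : ℤ) =
        (2 * ∑ r : {r : Fin n × Fin n × Bool // r.1 < r.2.1}, ∑ k ∈ Finset.Ico 1 K,
          (∑ i, (γ + k • posRoot2 r.1.1 r.1.2.1 r.1.2.2) i * posRoot2 r.1.1 r.1.2.1 r.1.2.2 i) *
            R.chZ (R.cyc v) (γ + k • posRoot2 r.1.1 r.1.2.1 r.1.2.2) : ℤ) := by
      have e1 : ∀ a : Fin n → ℤ, ∑ i, (a + rho2 n) i * (a + rho2 n) i =
          ∑ i, (a i + rho2 n i) ^ 2 := by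
        intro a
        apply Finset.sum_congr rfl
        intro i _
        rw [Pi.add_apply]
        ring
      rw [e1, e1] at hF
      have hF3 : ((((∑ i, (L i + rho2 n i) ^ 2) - ∑ i, (γ i + rho2 n i) ^ 2) *
        R.chZ (R.cyc v) γ : ℤ) : ℝ) =
        ((2 * ∑ r : {r : Fin n × Fin n × Bool // r.1 < r.2.1}, ∑ k ∈ Finset.Ico 1 K,
          (∑ i, (γ + k • posRoot2 r.1.1 r.1.2.1 r.1.2.2) i * posRoot2 r.1.1 r.1.2.1 r.1.2.2 i) *
            R.chZ (R.cyc v) (γ + k • posRoot2 r.1.1 r.1.2.1 r.1.2.2) : ℤ) : ℝ) := by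
        rw [Int.cast_mul, Int.cast_sub, Int.cast_mul, Int.cast_sum (s := Finset.univ)
          (f := fun r : {r : Fin n × Fin n × Bool // r.1 < r.2.1} => ∑ k ∈ Finset.Ico 1 K,
          (∑ i, (γ + k • posRoot2 r.1.1 r.1.2.1 r.1.2.2) i * posRoot2 r.1.1 r.1.2.1 r.1.2.2 i) *
            R.chZ (R.cyc v) (γ + k • posRoot2 r.1.1 r.1.2.1 r.1.2.2))]
        have e2 : ((R.chZ (R.cyc v) γ : ℤ) : ℝ) = (R.mult (R.cyc v) (halfV γ) : ℝ) := by
          simp only [StarRep.chZ, Int.cast_natCast]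
        rw [e2]
        push_cast at hF ⊢
        linarith
      exact_mod_cast hF3
    exact hF2

end Claimed.Agent.R282
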