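import Claimed.Agent.R282.Rep.T.Wcf

/-!
# Row 282, Rep, LEAF L-REP-KLIMYK (glue; statement by helper103), ~500 lines
`S = tsub (cyc v₁) (cyc v₂)`, `ch S = ch₁ * ch₂` (`rep_ch_kron`), `ch S = ∑_(κ∈F) h_κ chi κ` (`rep_split` with `chi κ` = character of a model from `rep_exists`).
Apply `ν ↦ altWD (fun y => · (ν - y)) ρ` at `ν = X + ρ`: LHS `= ∑_δ altWD (fun y => ch₁ (..)) .. = altWD (fun z => ch₂ (X + ρ - z)) (L + ρ)` by `rep_wcf` for `ch₁` (exchange finite sums); RHS `= ∑_κ h_κ altWD [X + ρ = ·] (κ + ρ) = h_X` (`rep_wcf`, `altWD_dominant`).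
-/

set_option autoImplicit false

namespace Claimed.Agent.R282

open Claims.C0456 Matrix

variable {n : ℕ}
variable {ι ι' ι₁ ι₂ ι₃ : Type} [Fintype ι] [DecidableEq ι] [Fintype ι'] [DecidableEq ι']
  [Fintype ι₁] [DecidableEq ι₁] [Fintype ι₂] [DecidableEq ι₂] [Fintype ι₃] [DecidableEq ι₃]

/-- `J(ρ) (m₁ * m₂) = J(L + ρ) m₂` for a Weyl character `m₁` -/
theorem rkl_conv (m₁ m₂ : (Fin n → ℤ) → ℤ) (L : Fin n → ℤ) (h : IsWeylChar2 L m₁)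
    (F : Finset (Fin n → ℤ)) (hF0 : ∀ δ, δ ∉ F → m₁ δ = 0) (ν : Fin n → ℤ) :
    altWD (fun y => ∑ δ ∈ F, m₁ δ * m₂ (ν - y - δ)) (rho2 n) =
      altWD (fun y => m₂ (ν - y)) (L + rho2 n) := by
  classical
  let Y : Finset (Fin n → ℤ) :=
    (Finset.univ : Finset (Equiv.Perm (Fin n) × (Fin n → Bool))).biUnion fun p =>
      insert (signedPermAct p.1 p.2 (L + rho2 n))
        (F.image fun δ => δ + signedPermAct p.1 p.2 (rho2 n))
  have hY1 : ∀ σ s, evenS s → signedPermAct σ s (L + rho2 n) ∈ Y := fun σ s _ =>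
    Finset.mem_biUnion.mpr ⟨(σ, s), Finset.mem_univ _, Finset.mem_insert_self _ _⟩
  have hY2 : ∀ σ s, (F.image fun δ => δ + signedPermAct σ s (rho2 n)) ⊆ Y := fun σ s η hη =>
    Finset.mem_biUnion.mpr ⟨(σ, s), Finset.mem_univ _, Finset.mem_insert_of_mem hη⟩
  rw [altWD_expand (fun y => m₂ (ν - y)) (L + rho2 n) Y hY1]
  simp only [← h.2, ← altWD_mul_left]
  rw [← altWD_sum]
  refine altWD_congr _ fun σ s _ => ?_
  rw [← Finset.sum_subset (hY2 σ s), Finset.sum_image]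
  · refine Finset.sum_congr rfl fun δ _ => ?_
    rw [add_sub_cancel_right, mul_comm]
    congr 2
    abel
  · intro a _ b _ hab
    exact add_right_cancel hab
  · intro η _ hη
    rw [hF0, mul_zero]
    intro hmem
    exact hη (Finset.mem_image.mpr ⟨_, hmem, sub_add_cancel _ _⟩)

/-- evaluation of `J(ρ) ∑ h_κ χ_κ` at a strictly dominant point -/
theorem rkl_eval (F : Finset (Fin n → ℤ)) (hdom : ∀ κ ∈ F, IsDominantWeight2 κ)
    (c : (Fin n → ℤ) → ℤ) (chi : (Fin n → ℤ) → (Fin n → ℤ) → ℤ)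
    (hchi : ∀ κ ∈ F, IsWeylChar2 κ (chi κ)) (X : Fin n → ℤ) (hX : IsDominantWeight2 X) :
    altWD (fun y => ∑ κ ∈ F, c κ * chi κ (X + rho2 n - y)) (rho2 n) =
      if X ∈ F then c X else 0 := by
  classical
  rw [altWD_sum]
  have : ∀ κ ∈ F, altWD (fun y => c κ * chi κ (X + rho2 n - y)) (rho2 n) =
      if κ = X then c κ else 0 := by
    intro κ hκ
    rw [altWD_mul_left, (hchi κ hκ).2, altWD_dominant κ X (hdom κ hκ) hX]
    split_ifs <;> simp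
  rw [Finset.sum_congr rfl this, Finset.sum_ite_eq' F X]

/-- **Klimyk's formula** (GLUE leaf).  `J(ρ) ch(S) = J(L+ρ) ch₂` by `rep_ch_kron` + `rep_wcf`; `J(ρ) ch(S) = ∑_κ h_κ J(κ+ρ)` by `rep_split` + `rep_wcf`;
evaluate at `X + ρ` with `altWD_dominant`. -/
theorem rep_klimyk0 (hn : 2 ≤ n) (L M X : Fin n → ℤ) (hL : IsDominantWeight2 L)
    (hM : IsDominantWeight2 M) (hX : IsDominantWeight2 X) (R₁ : StarRep Ty.D n ι₁)
    (R₂ : StarRep Ty.D n ι₂) (v₁ : ι₁ → ℂ) (v₂ : ι₂ → ℂ) (h₁ : IsHW R₁ v₁ (halfV L))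
    (h₂ : IsHW R₂ v₂ (halfV M)) :
    ((R₁.kron R₂).hwMult (tsub (R₁.cyc v₁) (R₂.cyc v₂)) (halfV X) : ℤ) =
      altWD (fun y => R₂.chZ (R₂.cyc v₂) (X + rho2 n - y)) (L + rho2 n) := by
  classical
  have w₁ : IsWeylChar2 L (R₁.chZ (R₁.cyc v₁)) := rep_wcf hn R₁ v₁ L hL h₁
  let F : Finset (Fin n → ℤ) := w₁.1.toFinset
  have hF0 : ∀ δ, δ ∉ F → R₁.chZ (R₁.cyc v₁) δ = 0 := fun δ hδ => by
    by_contra hne
    exact hδ ((Set.Finite.mem_toFinset _).mpr hne)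
  have hF : ∀ χ : Vec n, R₁.mult (R₁.cyc v₁) χ ≠ 0 → ∃ γ ∈ F, χ = halfV γ := by
    intro χ hχ
    obtain ⟨γ, rfl, -⟩ := (rep_top R₁ v₁ L h₁).2 χ hχ
    refine ⟨γ, (Set.Finite.mem_toFinset _).mpr ?_, rfl⟩
    show ((R₁.mult (R₁.cyc v₁) (halfV γ) : ℕ) : ℤ) ≠ 0
    exact_mod_cast hχ
  have hconv := rep_ch_kron R₁ R₂ _ _ (cyc_inv R₁ v₁) (cyc_inv R₂ v₂) F hF
  -- the family of irreducible characters
  have hex : ∀ κ : Fin n → ℤ, ∃ c : (Fin n → ℤ) → ℤ, IsDominantWeight2 κ →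
      ∃ (m : ℕ) (R' : StarRep Ty.D n (Fin m)) (v' : Fin m → ℂ),
        IsHW R' v' (halfV κ) ∧ c = R'.chZ (R'.cyc v') := by
    intro κ
    by_cases hκ : IsDominantWeight2 κ
    · obtain ⟨m, R', v', hv'⟩ := rep_exists κ hκ
      exact ⟨_, fun _ => ⟨m, R', v', hv', rfl⟩⟩
    · exact ⟨0, fun h => absurd h hκ⟩
  choose chi hchi using hex
  obtain ⟨F', hF'dom, hF'0, hsplit⟩ := rep_split hn (R₁.kron R₂) _
    (rep_inv_tsub R₁ R₂ _ _ (cyc_inv R₁ v₁) (cyc_inv R₂ v₂)) chi hchi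
  have hw : ∀ κ ∈ F', IsWeylChar2 κ (chi κ) := by
    intro κ hκ
    obtain ⟨m, R', v', hv', e⟩ := hchi κ (hF'dom κ hκ)
    rw [e]
    exact rep_wcf hn R' v' κ (hF'dom κ hκ) hv'
  have e1 := rkl_conv _ (R₂.chZ (R₂.cyc v₂)) L w₁ F hF0 (X + rho2 n)
  have e2 := rkl_eval F' hF'dom
    (fun κ => ((R₁.kron R₂).hwMult (tsub (R₁.cyc v₁) (R₂.cyc v₂)) (halfV κ) : ℤ)) chi hw X hX
  simp only [← hconv] at e1
  simp only [← hsplit] at e2
  rw [← e1, e2]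
  by_cases hXF : X ∈ F'
  · rw [if_pos hXF]
  · rw [if_neg hXF, hF'0 X hX hXF]
    rfl

end Claimed.Agent.R282
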